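import Mathlib

/-! Most moduli have few collisions on a large set of integers. -/

namespace Vale.Agent.P012

open Finset

lemma two_pow_omega_le (W : ℕ) (hW : 0 < W) : 2 ^ W.primeFactors.card ≤ W := by
  calc 2 ^ W.primeFactors.card ≤ ∏ p ∈ W.primeFactors, p :=
        Finset.pow_card_le_prod _ _ _ (fun p hp => (Nat.prime_of_mem_primeFactors hp).two_le)
    _ ≤ W := Nat.le_of_dvd hW (Nat.prod_primeFactors_dvd W)

lemma two_pow_omega_le_tau (K : ℕ) (hK : 0 < K) : 2 ^ K.primeFactors.card ≤ K.divisors.card := by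
  rw [Nat.card_divisors hK.ne']
  refine Finset.pow_card_le_prod _ _ _ (fun p hp => ?_)
  have : 0 < K.factorization p :=
    (Nat.prime_of_mem_primeFactors hp).factorization_pos_of_dvd hK.ne' (Nat.dvd_of_mem_primeFactors hp)
  omega

lemma count_div (W E : ℕ) (hW : 0 < W) (hWE : W ≤ 2 ^ E) (k : ℕ) :
    (W.divisors.filter (fun K => K.primeFactors.card ≤ k)).card ≤ (E + 1) ^ (2 * k) := by
  set P : Finset ℕ := insert 1 (image₂ (fun p j => p ^ j) W.primeFactors (range (E + 1))) with hP
  have hω : W.primeFactors.card ≤ E :=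
    (Nat.pow_le_pow_iff_right (by norm_num : 1 < 2)).1 ((two_pow_omega_le W hW).trans hWE)
  have hPc : P.card ≤ (E + 1) ^ 2 := by
    calc P.card ≤ (image₂ (fun p j => p ^ j) W.primeFactors (range (E + 1))).card + 1 :=
          card_insert_le _ _
      _ ≤ W.primeFactors.card * (range (E + 1)).card + 1 := by
          gcongr; exact card_image₂_le _ _ _
      _ ≤ E * (E + 1) + 1 := by rw [card_range]; gcongr
      _ ≤ (E + 1) ^ 2 := by nlinarith
  induction k with
  | zero =>
    simp only [mul_zero, pow_zero]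
    refine card_le_one.2 ?_
    intro a ha b hb
    simp only [mem_filter, Nat.mem_divisors, nonpos_iff_eq_zero, card_eq_zero,
      Nat.primeFactors_eq_empty] at ha hb
    have ha0 := Nat.pos_of_dvd_of_pos ha.1.1 hW
    have hb0 := Nat.pos_of_dvd_of_pos hb.1.1 hW
    omega
  | succ k ih =>
    have hsub : W.divisors.filter (fun K => K.primeFactors.card ≤ k + 1) ⊆
        image₂ (· * ·) P (W.divisors.filter (fun K => K.primeFactors.card ≤ k)) := by
      intro K hK
      simp only [mem_filter, Nat.mem_divisors] at hK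
      obtain ⟨⟨hKW, hW0⟩, hKk⟩ := hK
      have hK0 := Nat.pos_of_dvd_of_pos hKW hW
      rw [mem_image₂]
      by_cases h : K.primeFactors.card ≤ k
      · exact ⟨1, mem_insert_self _ _, K, by simp [hKW, hW0, h], one_mul _⟩
      · have hne : K.primeFactors.Nonempty := card_pos.1 (by omega)
        obtain ⟨p, hp⟩ := hne
        have hpp := Nat.prime_of_mem_primeFactors hp
        refine ⟨p ^ K.factorization p, ?_, K / p ^ K.factorization p, ?_,
          Nat.ordProj_mul_ordCompl_eq_self K p⟩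
        · refine mem_insert_of_mem (mem_image₂.2 ⟨p, Nat.primeFactors_mono hKW hW0 hp,
            K.factorization p, ?_, rfl⟩)
          rw [mem_range, Nat.lt_succ_iff]
          refine (Nat.pow_le_pow_iff_right (by norm_num : 1 < 2)).1 ?_
          calc 2 ^ K.factorization p ≤ p ^ K.factorization p := Nat.pow_le_pow_left hpp.two_le _
            _ ≤ K := Nat.le_of_dvd hK0 (Nat.ordProj_dvd K p)
            _ ≤ W := Nat.le_of_dvd hW hKW
            _ ≤ _ := hWE
        · simp only [mem_filter, Nat.mem_divisors]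
          refine ⟨⟨(Nat.ordCompl_dvd K p).trans hKW, hW0⟩, ?_⟩
          rw [← Nat.support_factorization, Nat.factorization_ordCompl, Finsupp.support_erase,
            Nat.support_factorization, card_erase_of_mem hp]
          omega
    calc _ ≤ _ := card_le_card hsub
      _ ≤ P.card * _ := card_image₂_le _ _ _
      _ ≤ (E + 1) ^ 2 * (E + 1) ^ (2 * k) := by gcongr
      _ = _ := by ring

lemma sum_tau_le (N e : ℕ) (hN : N ≤ 2 ^ e) :
    ∑ K ∈ Ioc 0 N, K.divisors.card ≤ N * (1 + e) := by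
  have h1 : ∑ K ∈ Ioc 0 N, K.divisors.card = ∑ n ∈ Ioc 0 N, N / n := by
    rw [← ArithmeticFunction.sum_Ioc_sigma0_eq_sum_div]
    simp [ArithmeticFunction.sigma_zero_apply]
  rw [h1]
  have h2 : ((∑ n ∈ Ioc 0 N, N / n : ℕ) : ℝ) ≤ N * (harmonic N : ℝ) := by
    rw [harmonic_eq_sum_Icc]
    push_cast
    rw [Finset.mul_sum, ← Finset.Icc_add_one_left_eq_Ioc]
    refine Finset.sum_le_sum fun n _ => ?_
    rw [← div_eq_mul_inv]
    exact Nat.cast_div_le
  have h3 : Real.log N ≤ e := by
    rcases Nat.eq_zero_or_pos N with h | h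
    · subst h; simp
    · have : (N : ℝ) ≤ 2 ^ e := by exact_mod_cast hN
      calc Real.log N ≤ Real.log (2 ^ e) := Real.log_le_log (by exact_mod_cast h) this
        _ = e * Real.log 2 := by rw [Real.log_pow]
        _ ≤ e * 1 := by
            gcongr
            have := Real.log_two_lt_d9
            linarith
        _ = e := mul_one _
  have h4 := harmonic_le_one_add_log N
  have : ((∑ n ∈ Ioc 0 N, N / n : ℕ) : ℝ) ≤ N * (1 + e) := by
    refine h2.trans ?_
    gcongr
    linarith
  exact_mod_cast this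

lemma sum_coll_le (N E k : ℕ) (A : Finset ℕ) (hAE : ∀ u ∈ A, u ≤ 2 ^ E) (hNA : N ≤ A.card) :
    ∑ K ∈ (Ioc 0 N).filter (fun K => K.primeFactors.card ≤ k),
      ((A ×ˢ A).filter (fun p => p.1 ≡ p.2 [MOD K])).card ≤
      (1 + (E + 1) ^ (2 * k)) * A.card ^ 2 := by
  set G := (Ioc 0 N).filter (fun K => K.primeFactors.card ≤ k) with hG
  set Y := (E + 1) ^ (2 * k) with hY
  simp_rw [card_filter]
  rw [Finset.sum_comm, Finset.sum_product]
  have key : ∀ u ∈ A, ∀ v ∈ A, u < v → (G.filter (fun K => u ≡ v [MOD K])).card ≤ Y := by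
    intro u hu v hv huv
    refine le_trans (card_le_card ?_) (count_div (v - u) E (by omega)
      (le_trans (Nat.sub_le _ _) (hAE v hv)) k)
    intro K hK
    simp only [hG, mem_filter, Nat.mem_divisors] at hK ⊢
    exact ⟨⟨(Nat.modEq_iff_dvd' huv.le).1 hK.2, by omega⟩, hK.1.2⟩
  have key2 : ∀ u ∈ A, ∀ v ∈ A, (∑ K ∈ G, if u ≡ v [MOD K] then 1 else 0) ≤
      (if u = v then N else 0) + Y := by
    intro u hu v hv
    rw [← card_filter]
    rcases lt_trichotomy u v with h | h | h
    · exact (key u hu v hv h).trans (Nat.le_add_left _ _)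
    · rw [if_pos h]
      calc _ ≤ G.card := card_filter_le _ _
        _ ≤ (Ioc 0 N).card := card_filter_le _ _
        _ ≤ _ := by simp
    · have := key v hv u hu h
      refine le_trans (le_of_eq ?_) (this.trans (Nat.le_add_left _ _))
      congr 1
      ext K
      simp only [mem_filter]
      exact and_congr_right fun _ => ⟨Nat.ModEq.symm, Nat.ModEq.symm⟩
  calc _ ≤ ∑ u ∈ A, ∑ v ∈ A, ((if u = v then N else 0) + Y) :=
        Finset.sum_le_sum fun u hu => Finset.sum_le_sum fun v hv => key2 u hu v hv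
    _ = ∑ u ∈ A, (N + A.card * Y) := by
        refine Finset.sum_congr rfl fun u hu => ?_
        rw [Finset.sum_add_distrib, Finset.sum_ite_eq, if_pos hu]
        simp
    _ = A.card * (N + A.card * Y) := by simp
    _ ≤ A.card * (A.card + A.card * Y) := by gcongr
    _ = _ := by ring

lemma exists_split (N E e k : ℕ) (A : Finset ℕ) (hN : 2 ≤ N) (hAE : ∀ u ∈ A, u ≤ 2 ^ E)
    (hNA : N ≤ A.card) (hNe : N ≤ 2 ^ e) (hk : 10 * (1 + e) ≤ 2 ^ k) :
    ∃ K₁ K₂ : ℕ, 0 < K₁ ∧ 0 < K₂ ∧ K₁ + K₂ = N ∧ ∀ K, (K = K₁ ∨ K = K₂) →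
      K * ((A ×ˢ A).filter (fun p => p.1 ≡ p.2 [MOD K])).card ≤
        (10 * (1 + (E + 1) ^ (2 * k))) * A.card ^ 2 := by
  set Y := (E + 1) ^ (2 * k) with hY
  set c : ℕ → ℕ := fun K => ((A ×ˢ A).filter (fun p => p.1 ≡ p.2 [MOD K])).card with hc
  set B₁ := (Ioc 0 N).filter (fun K => k < K.primeFactors.card) with hB₁
  set G := (Ioc 0 N).filter (fun K => K.primeFactors.card ≤ k) with hG
  set B₂ := G.filter (fun K => (10 * (1 + Y)) * A.card ^ 2 < K * c K) with hB₂
  have hA0 : 0 < A.card := by omega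
  have h1 : 10 * B₁.card ≤ N := by
    have : B₁.card * 2 ^ k ≤ N * (1 + e) := by
      calc B₁.card * 2 ^ k = ∑ _K ∈ B₁, 2 ^ k := by simp
        _ ≤ ∑ K ∈ B₁, K.divisors.card := by
            refine Finset.sum_le_sum fun K hK => ?_
            simp only [hB₁, mem_filter, mem_Ioc] at hK
            exact le_trans (Nat.pow_le_pow_right (by norm_num) hK.2.le)
              (two_pow_omega_le_tau K hK.1.1)
        _ ≤ ∑ K ∈ Ioc 0 N, K.divisors.card :=
            Finset.sum_le_sum_of_subset (filter_subset _ _)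
        _ ≤ _ := sum_tau_le N e hNe
    have h' : (10 * B₁.card) * (1 + e) ≤ N * (1 + e) := by
      calc (10 * B₁.card) * (1 + e) = B₁.card * (10 * (1 + e)) := by ring
        _ ≤ B₁.card * 2 ^ k := by gcongr
        _ ≤ _ := this
    exact Nat.le_of_mul_le_mul_right h' (by omega)
  have h2 : 10 * B₂.card ≤ N := by
    have hs := sum_coll_le N E k A hAE hNA
    have : B₂.card * ((10 * (1 + Y)) * A.card ^ 2) ≤ N * ((1 + Y) * A.card ^ 2) := by
      calc B₂.card * ((10 * (1 + Y)) * A.card ^ 2) = ∑ _K ∈ B₂, (10 * (1 + Y)) * A.card ^ 2 := by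
            simp
        _ ≤ ∑ K ∈ B₂, N * c K := by
            refine Finset.sum_le_sum fun K hK => ?_
            simp only [hB₂, hG, mem_filter, mem_Ioc] at hK
            exact hK.2.le.trans (Nat.mul_le_mul_right _ hK.1.1.2)
        _ ≤ ∑ K ∈ G, N * c K := Finset.sum_le_sum_of_subset (filter_subset _ _)
        _ = N * ∑ K ∈ G, c K := by rw [Finset.mul_sum]
        _ ≤ _ := Nat.mul_le_mul_left _ hs
    have h' : (10 * B₂.card) * ((1 + Y) * A.card ^ 2) ≤ N * ((1 + Y) * A.card ^ 2) := by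
      calc _ = B₂.card * ((10 * (1 + Y)) * A.card ^ 2) := by ring
        _ ≤ _ := this
    exact Nat.le_of_mul_le_mul_right h' (by positivity)
  by_contra hcon
  have hbad : ∀ K, 0 < K → K ≤ N → (10 * (1 + Y)) * A.card ^ 2 < K * c K → K ∈ B₁ ∪ B₂ := by
    intro K h0 hK hlt
    simp only [hB₁, hB₂, hG, mem_union, mem_filter, mem_Ioc]
    by_cases h : k < K.primeFactors.card
    · exact Or.inl ⟨⟨h0, hK⟩, h⟩
    · exact Or.inr ⟨⟨⟨h0, hK⟩, by omega⟩, hlt⟩
  have hsub : Ioo 0 N ⊆ (B₁ ∪ B₂) ∪ (B₁ ∪ B₂).image (fun K => N - K) := by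
    intro K hK
    rw [mem_Ioo] at hK
    by_contra hnot
    rw [mem_union, not_or] at hnot
    apply hcon
    refine ⟨K, N - K, hK.1, by omega, by omega, ?_⟩
    rintro K' (rfl | rfl)
    · by_contra hlt
      exact hnot.1 (hbad _ hK.1 hK.2.le (not_le.1 hlt))
    · by_contra hlt
      exact hnot.2 (mem_image.2 ⟨N - K, hbad _ (by omega) (by omega) (not_le.1 hlt), by omega⟩)
  have h3 := card_le_card hsub
  have h4 := card_union_le (B₁ ∪ B₂) ((B₁ ∪ B₂).image (fun K => N - K))
  have h5 : ((B₁ ∪ B₂).image (fun K => N - K)).card ≤ (B₁ ∪ B₂).card := card_image_le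
  have h6 := card_union_le B₁ B₂
  rw [Nat.card_Ioo] at h3
  omega

end Vale.Agent.P012
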