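import Mathlib

/-! Basic facts on sums of unit fractions and sums of divisors. -/

namespace Vale.Agent.P012

open Finset

/-- `x` is a sum of at most `k` unit fractions, repetitions allowed. -/
def EF (k : ℕ) (x : ℚ) : Prop :=
  ∃ m : Multiset ℕ, m.card ≤ k ∧ (∀ n ∈ m, 0 < n) ∧ (m.map (fun n : ℕ => (1 : ℚ) / n)).sum = x

lemma EF.zero : EF 0 0 := ⟨0, by simp, by simp, by simp⟩

lemma EF.mono {k l : ℕ} {x : ℚ} (h : EF k x) (hkl : k ≤ l) : EF l x := by
  obtain ⟨m, h1, h2, h3⟩ := h
  exact ⟨m, h1.trans hkl, h2, h3⟩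

lemma EF.add {k l : ℕ} {x y : ℚ} (hx : EF k x) (hy : EF l y) : EF (k + l) (x + y) := by
  obtain ⟨m, h1, h2, h3⟩ := hx
  obtain ⟨m', h1', h2', h3'⟩ := hy
  refine ⟨m + m', by rw [Multiset.card_add]; omega, ?_, by rw [Multiset.map_add, Multiset.sum_add, h3, h3']⟩
  intro n hn
  rcases Multiset.mem_add.1 hn with h | h
  · exact h2 n h
  · exact h2' n h

lemma EF.single {n : ℕ} (hn : 0 < n) : EF 1 ((1 : ℚ) / n) :=
  ⟨{n}, by simp, by simpa using hn, by simp⟩

/-- `u` is a sum of at most `k` divisors of `B`, repetitions allowed. -/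
def SD (B k u : ℕ) : Prop :=
  ∃ m : Multiset ℕ, m.card ≤ k ∧ (∀ d ∈ m, d ∣ B) ∧ m.sum = u

lemma SD.zero (B k : ℕ) : SD B k 0 := ⟨0, by simp, by simp, by simp⟩

lemma SD.mono {B B' k l u : ℕ} (h : SD B k u) (hB : B ∣ B') (hkl : k ≤ l) : SD B' l u := by
  obtain ⟨m, h1, h2, h3⟩ := h
  exact ⟨m, h1.trans hkl, fun d hd => (h2 d hd).trans hB, h3⟩

lemma SD.add {B k l u v : ℕ} (hu : SD B k u) (hv : SD B l v) : SD B (k + l) (u + v) := by
  obtain ⟨m, h1, h2, h3⟩ := hu
  obtain ⟨m', h1', h2', h3'⟩ := hv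
  refine ⟨m + m', by rw [Multiset.card_add]; omega, ?_, by rw [Multiset.sum_add, h3, h3']⟩
  intro n hn
  rcases Multiset.mem_add.1 hn with h | h
  · exact h2 n h
  · exact h2' n h

lemma SD.single {B d : ℕ} (h : d ∣ B) : SD B 1 d := ⟨{d}, by simp, by simpa using h, by simp⟩

lemma SD.mul {B k u : ℕ} (f : ℕ) (h : SD B k u) : SD (f * B) k (f * u) := by
  obtain ⟨m, h1, h2, h3⟩ := h
  refine ⟨m.map (f * ·), by simpa using h1, ?_, by rw [Multiset.sum_map_mul_left]; simp [h3]⟩
  intro d hd
  obtain ⟨e, he, rfl⟩ := Multiset.mem_map.1 hd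
  exact Nat.mul_dvd_mul_left f (h2 e he)

lemma SD.toEF {B k u K : ℕ} (hB : 0 < B) (h : SD B k u) (hu : 0 < u) (hdvd : K ∣ u) :
    EF k ((K : ℚ) / B) := by
  obtain ⟨m, h1, h2, h3⟩ := h
  obtain ⟨M, hM⟩ := hdvd
  have hMpos : 0 < M := by
    rcases Nat.eq_zero_or_pos M with h | h
    · subst h; omega
    · exact h
  refine ⟨m.map (fun d => B / d * M), by simpa using h1, ?_, ?_⟩
  · intro n hn
    obtain ⟨d, hd, rfl⟩ := Multiset.mem_map.1 hn
    exact Nat.mul_pos (Nat.div_pos (Nat.le_of_dvd hB (h2 d hd)) (Nat.pos_of_dvd_of_pos (h2 d hd) hB)) hMpos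
  · rw [Multiset.map_map]
    have : (m.map ((fun n : ℕ => (1 : ℚ) / n) ∘ fun d => B / d * M)) =
        m.map (fun d : ℕ => (d : ℚ) * (1 / (B * M))) := by
      refine Multiset.map_congr rfl ?_
      intro d hd
      obtain ⟨e, he⟩ := h2 d hd
      have hd0 : 0 < d := Nat.pos_of_dvd_of_pos (h2 d hd) hB
      have he0 : 0 < e := by
        rcases Nat.eq_zero_or_pos e with h | h
        · subst h; omega
        · exact h
      simp only [Function.comp]
      rw [he, Nat.mul_div_cancel_left _ hd0]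
      push_cast
      field_simp
    rw [this, Multiset.sum_map_mul_right, ← Nat.cast_multiset_sum, h3, hM]
    push_cast
    field_simp

lemma rep_finite (k : ℕ) : ∀ r : ℚ, {m : Multiset ℕ | m.card = k ∧ (∀ n ∈ m, 0 < n) ∧
    (m.map (fun n : ℕ => (1 : ℚ) / n)).sum = r}.Finite := by
  induction k with
  | zero =>
    intro r
    refine (Set.finite_singleton 0).subset ?_
    rintro m ⟨h, -, -⟩
    simpa using h
  | succ k ih =>
    intro r
    have hfin : (⋃ n ∈ Set.Iic ⌊((k + 1 : ℕ) : ℚ) / r⌋₊, (fun m' => n ::ₘ m') ''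
        {m : Multiset ℕ | m.card = k ∧ (∀ n ∈ m, 0 < n) ∧
          (m.map (fun n : ℕ => (1 : ℚ) / n)).sum = r - 1 / n}).Finite :=
      (Set.finite_Iic _).biUnion fun n _ => (ih _).image _
    refine hfin.subset ?_
    rintro m ⟨h1, h2, h3⟩
    have hne : m ≠ 0 := by rintro rfl; simp at h1
    obtain ⟨n, hn, hmin⟩ := Multiset.exists_min_image (fun n : ℕ => n) hne
    have hn0 := h2 n hn
    have hrpos : 0 < r := by
      rw [← h3]
      obtain ⟨m', rfl⟩ := Multiset.exists_cons_of_mem hn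
      rw [Multiset.map_cons, Multiset.sum_cons]
      have : 0 ≤ (m'.map (fun n : ℕ => (1 : ℚ) / n)).sum :=
        Multiset.sum_nonneg (by
          intro x hx
          obtain ⟨y, -, rfl⟩ := Multiset.mem_map.1 hx
          positivity)
      positivity
    have hle : r ≤ (k + 1 : ℕ) * (1 / n : ℚ) := by
      rw [← h3, ← h1, ← nsmul_eq_mul, ← Multiset.card_map (fun n : ℕ => (1 : ℚ) / n)]
      refine Multiset.sum_le_card_nsmul _ _ ?_
      intro x hx
      obtain ⟨y, hy, rfl⟩ := Multiset.mem_map.1 hx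
      have := hmin y hy
      have hn' : (0 : ℚ) < n := by exact_mod_cast hn0
      exact one_div_le_one_div_of_le hn' (by exact_mod_cast this)
    obtain ⟨m', rfl⟩ := Multiset.exists_cons_of_mem hn
    simp only [Set.mem_iUnion, Set.mem_image, Set.mem_ofPred_eq, Set.mem_Iic]
    refine ⟨n, ?_, m', ⟨by simpa using h1, fun x hx => h2 x (Multiset.mem_cons_of_mem hx), ?_⟩, rfl⟩
    · apply Nat.le_floor
      have hn' : (0 : ℚ) < n := by exact_mod_cast hn0
      rw [le_div_iff₀ hrpos]
      rw [mul_one_div, le_div_iff₀ hn'] at hle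
      linarith
    · rw [Multiset.map_cons, Multiset.sum_cons] at h3
      linarith

lemma distinct_aux (k : ℕ) : ∀ r : ℚ, r < 1 → ∀ m : Multiset ℕ, m.card = k → (∀ n ∈ m, 0 < n) →
    (m.map (fun n : ℕ => (1 : ℚ) / n)).sum = r →
    ∃ S : Finset ℕ, S.card ≤ k ∧ (∀ n ∈ S, 2 ≤ n) ∧ ∑ n ∈ S, (1 : ℚ) / n = r := by
  induction k with
  | zero =>
    intro r _ m h1 _ h3
    have : m = 0 := by simpa using h1
    subst this
    exact ⟨∅, by simp, by simp, by simpa using h3⟩
  | succ k ih =>
    intro r hr m₀ h1 h2 h3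
    obtain ⟨m, ⟨hm1, hm2, hm3⟩, hmax⟩ := (rep_finite (k + 1) r).exists_maximalFor
      (fun m : Multiset ℕ => m.sum) _ ⟨m₀, h1, h2, h3⟩
    have hnn : ∀ m' : Multiset ℕ, 0 ≤ (m'.map (fun n : ℕ => (1 : ℚ) / n)).sum := fun m' =>
      Multiset.sum_nonneg (by
        intro x hx
        obtain ⟨y, -, rfl⟩ := Multiset.mem_map.1 hx
        positivity)
    have h2le : ∀ n ∈ m, 2 ≤ n := by
      intro n hn
      have h0 := hm2 n hn
      by_contra hlt
      have : n = 1 := by omega
      subst this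
      obtain ⟨m', rfl⟩ := Multiset.exists_cons_of_mem hn
      rw [Multiset.map_cons, Multiset.sum_cons] at hm3
      have := hnn m'
      norm_num at hm3 this
      linarith
    by_cases hnd : m.Nodup
    · refine ⟨⟨m, hnd⟩, by simp [hm1], h2le, hm3⟩
    · rw [Multiset.nodup_iff_ne_cons_cons] at hnd
      push Not at hnd
      obtain ⟨n, m', rfl⟩ := hnd
      have hn2 := h2le n (by simp)
      rcases Nat.even_or_odd' n with ⟨c, hc | hc⟩
      · have hc0 : 0 < c := by omega
        obtain ⟨S, hS1, hS2, hS3⟩ := ih r hr (c ::ₘ m') (by simpa using hm1) (by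
            intro x hx
            rcases Multiset.mem_cons.1 hx with rfl | hx
            · exact hc0
            · exact hm2 x (by simp [hx])) (by
            rw [← hm3]
            simp only [Multiset.map_cons, Multiset.sum_cons]
            subst hc
            push_cast
            field_simp
            ring)
        exact ⟨S, by omega, hS2, hS3⟩
      · exfalso
        have hc0 : 0 < c := by omega
        have hmem : ((c + 1) ::ₘ (n * (c + 1)) ::ₘ m') ∈ {m : Multiset ℕ | m.card = k + 1 ∧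
            (∀ n ∈ m, 0 < n) ∧ (m.map (fun n : ℕ => (1 : ℚ) / n)).sum = r} := by
          refine ⟨by simpa using hm1, ?_, ?_⟩
          · intro x hx
            simp only [Multiset.mem_cons] at hx
            rcases hx with rfl | rfl | hx
            · omega
            · positivity
            · exact hm2 x (by simp [hx])
          · rw [← hm3]
            simp only [Multiset.map_cons, Multiset.sum_cons]
            subst hc
            push_cast
            field_simp
            ring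
        have hle : (n ::ₘ n ::ₘ m').sum ≤ ((c + 1) ::ₘ (n * (c + 1)) ::ₘ m').sum := by
          simp only [Multiset.sum_cons]
          subst hc
          nlinarith
        have := hmax hmem hle
        simp only [Multiset.sum_cons] at this
        subst hc
        nlinarith

lemma EF.distinct {k : ℕ} {r : ℚ} (h : EF k r) (hr : r < 1) :
    ∃ S : Finset ℕ, S.card ≤ k ∧ (∀ n ∈ S, 2 ≤ n) ∧ ∑ n ∈ S, (1 : ℚ) / n = r := by
  obtain ⟨m, h1, h2, h3⟩ := h
  obtain ⟨S, hS1, hS2, hS3⟩ := distinct_aux m.card r hr m rfl h2 h3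
  exact ⟨S, hS1.trans h1, hS2, hS3⟩

end Vale.Agent.P012
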