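import Mathlib

/-! A Fourier covering lemma on `ZMod K`. -/

namespace Vale.Agent.P012

open Finset

section
variable {K : ℕ} [NeZero K]

lemma norm_chi (x : ZMod K) : ‖(ZMod.stdAddChar x : ℂ)‖ = 1 := by
  rw [ZMod.stdAddChar_apply]; exact Circle.norm_coe _

lemma conj_chi (x : ZMod K) :
    (starRingEnd ℂ) (ZMod.stdAddChar x : ℂ) = ZMod.stdAddChar (-x) := by
  rw [AddChar.map_neg_eq_inv, Complex.inv_def, Complex.normSq_eq_norm_sq, norm_chi]
  simp

lemma sum_chi (t : ZMod K) :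
    ∑ h : ZMod K, (ZMod.stdAddChar (h * t) : ℂ) = if t = 0 then (K : ℂ) else 0 := by
  rw [AddChar.sum_mulShift _ (ZMod.isPrimitive_stdAddChar K)]
  simp [ZMod.card]

/-- exponential sum over a finite set of naturals -/
noncomputable def expS (A : Finset ℕ) (h : ZMod K) : ℂ :=
  ∑ u ∈ A, ZMod.stdAddChar (h * (u : ZMod K))

lemma norm_expS_le (A : Finset ℕ) (h : ZMod K) : ‖expS A h‖ ≤ A.card := by
  unfold expS
  refine (norm_sum_le _ _).trans ?_
  simp

lemma expS_zero (A : Finset ℕ) : expS A (0 : ZMod K) = A.card := by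
  simp [expS]

lemma parseval (A : Finset ℕ) :
    ∑ h : ZMod K, ‖expS A h‖ ^ 2 =
      K * (((A ×ˢ A).filter (fun p => p.1 ≡ p.2 [MOD K])).card : ℝ) := by
  have h1 : ∀ h : ZMod K, ((‖expS A h‖ ^ 2 : ℝ) : ℂ) =
      ∑ p ∈ A ×ˢ A, ZMod.stdAddChar (h * ((p.1 : ZMod K) - (p.2 : ZMod K))) := by
    intro h
    rw [← Complex.normSq_eq_norm_sq, ← Complex.mul_conj]
    unfold expS
    rw [map_sum, Finset.sum_mul_sum, Finset.sum_product]
    refine Finset.sum_congr rfl fun u _ => Finset.sum_congr rfl fun v _ => ?_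
    rw [conj_chi, ← AddChar.map_add_eq_mul]
    congr 1
    ring
  have h2 : ((∑ h : ZMod K, ‖expS A h‖ ^ 2 : ℝ) : ℂ) =
      ((K * (((A ×ˢ A).filter (fun p => p.1 ≡ p.2 [MOD K])).card : ℝ) : ℝ) : ℂ) := by
    rw [Complex.ofReal_sum]
    simp_rw [h1]
    rw [Finset.sum_comm]
    simp_rw [sum_chi, sub_eq_zero, ZMod.natCast_eq_natCast_iff]
    rw [← Finset.sum_filter]
    simp [mul_comm]
  exact_mod_cast h2

lemma geom_bound (η : ℂ) (hη : ‖η‖ = 1) (h1 : η ≠ 1) (g W : ℕ) (hg : 0 < g) (hpow : η ^ g = 1) :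
    ‖∑ w ∈ range W, η ^ w‖ ≤ g := by
  have : ∑ w ∈ range W, η ^ w = ∑ w ∈ range (W % g), η ^ w := by
    rw [geom_sum_eq h1, geom_sum_eq h1]
    congr 2
    conv_lhs => rw [← Nat.div_add_mod W g, pow_add, pow_mul, hpow, one_pow, one_mul]
  rw [this]
  refine (norm_sum_le _ _).trans ?_
  simp only [norm_pow, hη, one_pow, sum_const, card_range, nsmul_eq_mul, mul_one]
  exact_mod_cast (Nat.mod_lt W hg).le

end

lemma cover {K : ℕ} (hK : 0 < K) (A F : Finset ℕ) (W W₀ M : ℕ) (hA : A.Nonempty)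
    (hF : ∀ f ∈ F, f ≤ W₀)
    (hcoll : K * ((A ×ˢ A).filter (fun p => p.1 ≡ p.2 [MOD K])).card ≤ M * A.card ^ 2)
    (hFM : 4 * M ^ 3 ≤ F.card) (hW : 2 * M * W₀ ≤ W) (hM : 0 < M) (hW0 : 0 < W) :
    ∃ u₁ ∈ A, ∃ u₂ ∈ A, ∃ u₃ ∈ A, ∃ f ∈ F, ∃ w < W, K ∣ u₁ + u₂ + f * u₃ + w + 1 := by
  have : NeZero K := ⟨hK.ne'⟩
  by_contra hcon
  push Not at hcon
  set Ψ : ZMod K → ℂ := fun h => ∑ f ∈ F, expS A (h * (f : ZMod K)) with hΨ
  set X : ZMod K → ℂ := fun h => expS (range W) h with hX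
  have hApos : (0 : ℝ) < A.card := by exact_mod_cast hA.card_pos
  have hMpos : (0 : ℝ) < M := by exact_mod_cast hM
  have hFpos : (0 : ℝ) < F.card := by
    have : 0 < F.card := lt_of_lt_of_le (by positivity) hFM
    exact_mod_cast this
  have hWpos : (0 : ℝ) < W := by exact_mod_cast hW0
  have hzero : ∑ h : ZMod K, ZMod.stdAddChar h * (expS A h * expS A h * Ψ h * X h) = 0 := by
    have : ∀ h : ZMod K, ZMod.stdAddChar h * (expS A h * expS A h * Ψ h * X h) =
        ∑ u₁ ∈ A, ∑ u₂ ∈ A, ∑ f ∈ F, ∑ u₃ ∈ A, ∑ w ∈ range W,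
          ZMod.stdAddChar (h * ((u₁ + u₂ + f * u₃ + w + 1 : ℕ) : ZMod K)) := by
      intro h
      have e : ∀ u₁ u₂ f u₃ w : ℕ,
          (ZMod.stdAddChar (h * ((u₁ + u₂ + f * u₃ + w + 1 : ℕ) : ZMod K)) : ℂ) =
          ZMod.stdAddChar h * (ZMod.stdAddChar (h * (u₁ : ZMod K)) *
            (ZMod.stdAddChar (h * (u₂ : ZMod K)) *
            (ZMod.stdAddChar (h * (f : ZMod K) * (u₃ : ZMod K)) *
            ZMod.stdAddChar (h * (w : ZMod K))))) := by
        intro u₁ u₂ f u₃ w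
        simp only [← AddChar.map_add_eq_mul]
        congr 1
        push_cast
        ring
      simp_rw [e, ← Finset.mul_sum, ← Finset.sum_mul]
      simp only [hΨ, hX, expS]
      ring
    simp_rw [this]
    rw [Finset.sum_comm]
    refine Finset.sum_eq_zero fun u₁ h₁ => ?_
    rw [Finset.sum_comm]
    refine Finset.sum_eq_zero fun u₂ h₂ => ?_
    rw [Finset.sum_comm]
    refine Finset.sum_eq_zero fun f hf => ?_
    rw [Finset.sum_comm]
    refine Finset.sum_eq_zero fun u₃ h₃ => ?_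
    rw [Finset.sum_comm]
    refine Finset.sum_eq_zero fun w hw => ?_
    rw [sum_chi, if_neg]
    rw [ZMod.natCast_eq_zero_iff]
    exact hcon u₁ h₁ u₂ h₂ u₃ h₃ f hf w (Finset.mem_range.1 hw)
  have hpars : ∑ h : ZMod K, ‖expS A h‖ ^ 2 ≤ M * (A.card : ℝ) ^ 2 := by
    rw [parseval]; exact_mod_cast hcoll
  have hbound : ∀ h : ZMod K, h ≠ 0 → ‖Ψ h‖ * ‖X h‖ ≤ A.card * F.card * W / (2 * M) := by
    intro h hh
    by_cases hinj : Set.InjOn (fun f : ℕ => h * (f : ZMod K)) F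
    · have h1 : ∑ f ∈ F, ‖expS A (h * (f : ZMod K))‖ ^ 2 ≤ M * (A.card : ℝ) ^ 2 := by
        refine le_trans ?_ hpars
        rw [← Finset.sum_image (f := fun z : ZMod K => ‖expS A z‖ ^ 2) hinj]
        exact Finset.sum_le_sum_of_subset_of_nonneg (Finset.subset_univ _)
          (fun _ _ _ => by positivity)
      have h2 : ‖Ψ h‖ ^ 2 ≤ F.card * (M * (A.card : ℝ) ^ 2) := by
        calc ‖Ψ h‖ ^ 2 ≤ (∑ f ∈ F, ‖expS A (h * (f : ZMod K))‖) ^ 2 := by
              gcongr; exact norm_sum_le _ _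
          _ ≤ F.card * ∑ f ∈ F, ‖expS A (h * (f : ZMod K))‖ ^ 2 := sq_sum_le_card_mul_sum_sq
          _ ≤ _ := by gcongr
      have h3 : ‖Ψ h‖ ≤ A.card * F.card / (2 * M) := by
        refine (pow_le_pow_iff_left₀ (norm_nonneg _) (by positivity) two_ne_zero).1 ?_
        refine h2.trans ?_
        have hFM' : 4 * (M : ℝ) ^ 3 ≤ F.card := by exact_mod_cast hFM
        rw [div_pow, le_div_iff₀ (by positivity)]
        have : (F.card : ℝ) * (M * (A.card : ℝ) ^ 2) * (2 * M) ^ 2 =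
            (F.card * (A.card : ℝ) ^ 2) * (4 * M ^ 3) := by ring
        rw [this]
        calc _ ≤ (F.card * (A.card : ℝ) ^ 2) * F.card := by gcongr
          _ = _ := by ring
      have h4 : ‖X h‖ ≤ W := by simpa using norm_expS_le (range W) h
      calc ‖Ψ h‖ * ‖X h‖ ≤ ((A.card : ℝ) * F.card / (2 * M)) * W := by gcongr
        _ = _ := by ring
    · have : ∃ g : ℕ, 0 < g ∧ g ≤ W₀ ∧ h * (g : ZMod K) = 0 := by
        unfold Set.InjOn at hinj
        push Not at hinj
        obtain ⟨f, hf, f', hf', heq, hne⟩ := hinj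
        have hf1 := hF f hf
        have hf2 := hF f' hf'
        rcases lt_or_gt_of_ne hne with hlt | hlt
        · refine ⟨f' - f, by omega, by omega, ?_⟩
          rw [Nat.cast_sub hlt.le, mul_sub, heq, sub_self]
        · refine ⟨f - f', by omega, by omega, ?_⟩
          rw [Nat.cast_sub hlt.le, mul_sub, heq, sub_self]
      obtain ⟨g, hg0, hgW, hg⟩ := this
      have h1 : ‖Ψ h‖ ≤ A.card * F.card := by
        refine (norm_sum_le _ _).trans ?_
        calc _ ≤ ∑ _f ∈ F, (A.card : ℝ) := Finset.sum_le_sum fun f _ => norm_expS_le _ _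
          _ = _ := by simp [mul_comm]
      have h2 : ‖X h‖ ≤ g := by
        have : X h = ∑ w ∈ range W, (ZMod.stdAddChar h : ℂ) ^ w := by
          simp only [hX, expS]
          refine Finset.sum_congr rfl fun w _ => ?_
          rw [← AddChar.map_nsmul_eq_pow, nsmul_eq_mul, mul_comm]
        rw [this]
        refine geom_bound _ (norm_chi h) ?_ g W hg0 ?_
        · intro h1
          apply hh
          apply ZMod.injective_stdAddChar
          rw [h1, AddChar.map_zero_eq_one]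
        · rw [← AddChar.map_nsmul_eq_pow, nsmul_eq_mul, mul_comm, hg, AddChar.map_zero_eq_one]
      have h3 : (g : ℝ) ≤ W / (2 * M) := by
        rw [le_div_iff₀ (by positivity)]
        have : g * (2 * M) ≤ W := le_trans (by nlinarith) hW
        exact_mod_cast this
      calc ‖Ψ h‖ * ‖X h‖ ≤ ((A.card : ℝ) * F.card) * (W / (2 * M)) := by
            gcongr; exact h2.trans h3
        _ = _ := by ring
  rw [← Finset.add_sum_erase _ _ (Finset.mem_univ (0 : ZMod K))] at hzero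
  have hmain : ‖ZMod.stdAddChar (0 : ZMod K) * (expS A (0 : ZMod K) * expS A (0 : ZMod K) *
      Ψ 0 * X 0)‖ = (A.card : ℝ) ^ 3 * F.card * W := by
    simp only [hΨ, hX, zero_mul, expS_zero, AddChar.map_zero_eq_one, one_mul, sum_const,
      card_range, nsmul_eq_mul, norm_mul, Complex.norm_natCast]
    ring
  have herr : ‖∑ h ∈ univ.erase (0 : ZMod K),
      ZMod.stdAddChar h * (expS A h * expS A h * Ψ h * X h)‖ ≤
      (A.card : ℝ) ^ 3 * F.card * W / 2 := by
    refine (norm_sum_le _ _).trans ?_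
    calc _ ≤ ∑ h ∈ univ.erase (0 : ZMod K),
          ‖expS A h‖ ^ 2 * (A.card * F.card * W / (2 * M)) := by
          refine Finset.sum_le_sum fun h hh => ?_
          have := hbound h (Finset.ne_of_mem_erase hh)
          simp only [norm_mul, norm_chi, one_mul]
          calc _ = ‖expS A h‖ ^ 2 * (‖Ψ h‖ * ‖X h‖) := by ring
            _ ≤ _ := by gcongr
      _ ≤ ∑ h : ZMod K, ‖expS A h‖ ^ 2 * (A.card * F.card * W / (2 * M)) :=
          Finset.sum_le_sum_of_subset_of_nonneg (Finset.subset_univ _)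
            (fun _ _ _ => by positivity)
      _ = (∑ h : ZMod K, ‖expS A h‖ ^ 2) * (A.card * F.card * W / (2 * M)) := by
          rw [Finset.sum_mul]
      _ ≤ (M * (A.card : ℝ) ^ 2) * (A.card * F.card * W / (2 * M)) := by gcongr
      _ = _ := by field_simp
  have := eq_neg_of_add_eq_zero_left hzero
  rw [this, norm_neg] at hmain
  have hpos : (0 : ℝ) < (A.card : ℝ) ^ 3 * F.card * W := by positivity
  linarith

end Vale.Agent.P012
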