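import Vale.Agent.P012.Basic

/-! Greedy steps, digit expansions and products of primes. -/

namespace Vale.Agent.P012

open Finset

lemma step (G a b : ℕ) (ha : 1 ≤ a) (hb : 1 ≤ b) (hG : G * a ≤ b) :
    ∃ n a' : ℕ, 1 ≤ a' ∧ a' ≤ a ∧ G < n ∧ n ≤ b + 1 ∧
      (a : ℚ) / b - (a' : ℚ) / ((b * n : ℕ) : ℚ) = 1 / n := by
  have h1 : a * (b / a) + b % a = b := Nat.div_add_mod b a
  have h2 : b % a < a := Nat.mod_lt b ha
  refine ⟨b / a + 1, a - b % a, by omega, by omega, ?_, ?_, ?_⟩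
  · have : G ≤ b / a := (Nat.le_div_iff_mul_le ha).2 hG
    omega
  · have : b / a ≤ b := Nat.div_le_self b a
    omega
  · have hb' : (b : ℚ) ≠ 0 := by positivity
    have h3 : (b : ℚ) = a * ((b / a : ℕ) : ℚ) + ((b % a : ℕ) : ℚ) := by exact_mod_cast h1.symm
    rw [Nat.cast_sub h2.le]
    generalize ((b / a : ℕ)) = q at *
    generalize ((b % a : ℕ)) = r at *
    push_cast
    field_simp
    linarith

lemma phase1 (a b : ℕ) (ha : 1 ≤ a) (hab : a < b) (i : ℕ) :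
    ∃ a' b' : ℕ, 1 ≤ a' ∧ a' ≤ a ∧ 2 ^ (2 ^ i) * a' ≤ b' ∧ 2 * b' ≤ (2 * b) ^ (2 ^ (i + 1)) ∧
      EF (i + 1) ((a : ℚ) / b - (a' : ℚ) / b') := by
  induction i with
  | zero =>
    obtain ⟨n, a', h1, h2, h3, h4, h5⟩ := step 1 a b ha (by omega) (by omega)
    refine ⟨a', b * n, h1, h2, by norm_num; nlinarith, by norm_num; nlinarith, ?_⟩
    rw [h5]
    exact EF.single (by omega)
  | succ i ih =>
    obtain ⟨a₁, b₁, g1, g2, g3, g4, g5⟩ := ih
    have hb₁ : 1 ≤ b₁ := le_trans (Nat.mul_pos (by positivity) g1) g3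
    obtain ⟨n, a', h1, h2, h3, h4, h5⟩ := step _ a₁ b₁ g1 hb₁ g3
    refine ⟨a', b₁ * n, h1, h2.trans g2, ?_, ?_, ?_⟩
    · calc 2 ^ 2 ^ (i + 1) * a' = (2 ^ 2 ^ i * a') * 2 ^ 2 ^ i := by rw [pow_succ 2 i]; ring
        _ ≤ (2 ^ 2 ^ i * a₁) * n := by gcongr
        _ ≤ b₁ * n := by gcongr
    · calc 2 * (b₁ * n) ≤ (2 * b₁) ^ 2 := by nlinarith
        _ ≤ ((2 * b) ^ (2 ^ (i + 1))) ^ 2 := by gcongr
        _ = _ := by rw [← pow_mul, ← pow_succ]
    · have := g5.add (EF.single (n := n) (Nat.zero_lt_of_lt h3))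
      rw [← h5] at this
      convert this using 1
      ring

lemma phase2 (Q₀ : ℕ) (hQ : 0 < Q₀) (D : Finset ℕ) (hD : ∀ d ∈ D, d ∣ Q₀) (a b : ℕ) (ha : 1 ≤ a)
    (hab : Q₀ * a ≤ b) (s : ℕ) :
    ∃ a' b' R : ℕ, ∃ A : Finset ℕ, 1 ≤ a' ∧ a' ≤ a ∧ Q₀ * a' ≤ b' ∧ 2 * b' ≤ (2 * b) ^ (2 ^ s) ∧
      EF s ((a : ℚ) / b - (a' : ℚ) / b') ∧ R ∣ b' ∧ A.card = D.card ^ s ∧
      ∀ u ∈ A, u < R ∧ SD (R * Q₀) s u := by
  induction s with
  | zero =>
    refine ⟨a, b, 1, {0}, ha, le_rfl, hab, by simp, by simpa using EF.zero, one_dvd _, by simp, ?_⟩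
    intro u hu
    rw [mem_singleton] at hu
    subst hu
    exact ⟨one_pos, SD.zero _ _⟩
  | succ s ih =>
    obtain ⟨a₁, b₁, R, A, g1, g2, g3, g4, g5, g6, g7, g8⟩ := ih
    have hb₁ : 1 ≤ b₁ := le_trans (Nat.mul_pos hQ g1) g3
    obtain ⟨n, a', h1, h2, h3, h4, h5⟩ := step _ a₁ b₁ g1 hb₁ g3
    refine ⟨a', b₁ * n, R * n, image₂ (fun u d => u + R * d) A D, h1, h2.trans g2, ?_, ?_, ?_,
      Nat.mul_dvd_mul_right g6 n, ?_, ?_⟩
    · calc Q₀ * a' ≤ Q₀ * a₁ := by gcongr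
        _ ≤ b₁ := g3
        _ ≤ b₁ * n := Nat.le_mul_of_pos_right _ (by omega)
    · calc 2 * (b₁ * n) ≤ (2 * b₁) ^ 2 := by nlinarith
        _ ≤ ((2 * b) ^ (2 ^ s)) ^ 2 := by gcongr
        _ = _ := by rw [← pow_mul, ← pow_succ]
    · have := g5.add (EF.single (n := n) (by omega))
      rw [← h5] at this
      convert this using 1
      ring
    · rw [card_image₂_iff.2, g7, pow_succ]
      rintro ⟨u, d⟩ hud ⟨u', d'⟩ hud' heq
      simp only [Set.mem_prod, mem_coe] at hud hud' heq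
      have hu := (g8 u hud.1).1
      have hu' := (g8 u' hud'.1).1
      have e1 : u = u' := by
        have := congrArg (· % R) heq
        simpa [Nat.add_mul_mod_self_left, Nat.mod_eq_of_lt hu, Nat.mod_eq_of_lt hu'] using this
      subst e1
      have e2 : d = d' := Nat.eq_of_mul_eq_mul_left (by omega : 0 < R) (by omega)
      rw [e2]
    · intro v hv
      obtain ⟨u, hu, d, hd, rfl⟩ := mem_image₂.1 hv
      have hd' : d ≤ Q₀ := Nat.le_of_dvd hQ (hD d hd)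
      obtain ⟨hu1, hu2⟩ := g8 u hu
      refine ⟨by nlinarith, ?_⟩
      refine (hu2.mono ?_ le_rfl).add (SD.single ?_)
      · exact Nat.mul_dvd_mul (Dvd.intro _ rfl) dvd_rfl
      · exact Nat.mul_dvd_mul (Dvd.intro _ rfl) (hD d hd)

lemma digits (m : ℕ) (hm : 0 < m) (j : ℕ) : ∀ w < m ^ j, SD (m.factorial * m ^ j) j w := by
  induction j with
  | zero => intro w hw; have : w = 0 := by simpa using hw
            subst this; exact SD.zero _ _
  | succ j ih =>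
    intro w hw
    have h1 : w / m < m ^ j := by
      rw [Nat.div_lt_iff_lt_mul hm]; rwa [pow_succ] at hw
    have h2 := (ih _ h1).mul m
    have h3 : SD (m.factorial * m ^ (j + 1)) 1 (w % m) := by
      rcases Nat.eq_zero_or_pos (w % m) with h | h
      · rw [h]; exact SD.zero _ _
      · exact SD.single (Dvd.dvd.mul_right (Nat.dvd_factorial h (Nat.mod_lt w hm).le) _)
    have h4 := (h2.mono (B' := m.factorial * m ^ (j + 1)) (Dvd.intro 1 (by ring)) le_rfl).add h3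
    rwa [Nat.div_add_mod] at h4

lemma prod_injOn (P : Finset ℕ) (hP : ∀ p ∈ P, p.Prime) :
    Set.InjOn (fun s : Finset ℕ => ∏ p ∈ s, p) P.powerset := by
  intro s hs s' hs' heq
  simp only [coe_powerset, Set.mem_preimage, Set.mem_powerset_iff, coe_subset] at hs hs'
  have := congrArg Nat.primeFactors heq
  rwa [Nat.primeFactors_prod (fun p hp => hP p (hs hp)),
    Nat.primeFactors_prod (fun p hp => hP p (hs' hp))] at this

lemma exists_D (y : ℕ) : ∃ D : Finset ℕ, (∀ d ∈ D, d ∣ primorial y) ∧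
    D.card = 2 ^ (Nat.primesLE y).card := by
  refine ⟨(Nat.primesLE y).powerset.image (fun s => ∏ p ∈ s, p), ?_, ?_⟩
  · intro d hd
    obtain ⟨s, hs, rfl⟩ := mem_image.1 hd
    exact Finset.prod_dvd_prod_of_subset _ _ _ (mem_powerset.1 hs)
  · rw [card_image_of_injOn (prod_injOn _ fun p hp => Nat.prime_of_mem_primesLE hp), card_powerset]

lemma exists_F (y j : ℕ) : ∃ F : Finset ℕ, (∀ f ∈ F, f ∣ primorial y ∧ f ≤ y ^ j) ∧
    F.card = ((Nat.primesLE y).card).choose j := by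
  refine ⟨((Nat.primesLE y).powersetCard j).image (fun s => ∏ p ∈ s, p), ?_, ?_⟩
  · intro d hd
    obtain ⟨s, hs, rfl⟩ := mem_image.1 hd
    rw [mem_powersetCard] at hs
    refine ⟨Finset.prod_dvd_prod_of_subset _ _ _ hs.1, ?_⟩
    rw [← hs.2]
    exact Finset.prod_le_pow_card _ _ _ fun p hp => Nat.le_of_mem_primesLE (hs.1 hp)
  · rw [card_image_of_injOn, card_powersetCard]
    refine (prod_injOn (Nat.primesLE y) fun p hp => Nat.prime_of_mem_primesLE hp).mono ?_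
    intro s hs
    simp only [mem_coe, mem_powersetCard, mem_powerset] at hs ⊢
    exact hs.1

lemma primes_lower (y : ℕ) (hy : 0 < y) : 2 ^ y ≤ (y + 1) * y ^ (Nat.primesLE y).card := by
  refine (Chebyshev.two_pow_le_mul_lcmUpto y).trans (Nat.mul_le_mul_left _ ?_)
  rw [Nat.lcmUpto_eq_prod_pow_log]
  exact Finset.prod_le_pow_card _ _ _ fun p _ => Nat.pow_log_le_self p hy.ne'

lemma pow_le_choose' (m j t : ℕ) (h : m * j + j ≤ t) : m ^ j ≤ t.choose j := by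
  rcases Nat.eq_zero_or_pos j with rfl | hj
  · simp
  have h1 := Nat.pow_le_choose (α := ℚ) j t
  have h2 : (j.factorial : ℚ) ≤ (j : ℚ) ^ j := by exact_mod_cast Nat.factorial_le_pow j
  have h3 : ((m * j : ℕ) : ℚ) ≤ ((t + 1 - j : ℕ) : ℚ) := by
    exact_mod_cast (by omega : m * j ≤ t + 1 - j)
  have h4 : (m : ℚ) ^ j ≤ ((t + 1 - j : ℕ) : ℚ) ^ j / j.factorial := by
    rw [le_div_iff₀ (by positivity)]
    calc (m : ℚ) ^ j * j.factorial ≤ (m : ℚ) ^ j * (j : ℚ) ^ j := by gcongr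
      _ = ((m * j : ℕ) : ℚ) ^ j := by push_cast; ring
      _ ≤ _ := by gcongr
  exact_mod_cast h4.trans h1

end Vale.Agent.P012
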