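import Mathlib

/-! The lower bound of Erdos for the fraction `(b-1)/b`. -/

namespace Vale.Agent.P012

open Finset

lemma gap (K : ℕ) (hK : 1 ≤ K) (k : ℕ) : k ≤ K → ∀ S : Finset ℕ, S.card = k → (∀ n ∈ S, 0 < n) →
    ∀ (r : ℚ) (q : ℕ), 0 < q → (∃ z : ℤ, r * q = z) → ∑ n ∈ S, (1 : ℚ) / n < r →
    1 / ((2 * K * q : ℕ) : ℚ) ^ (2 ^ k) ≤ r - ∑ n ∈ S, (1 : ℚ) / n := by
  have hr : ∀ (r : ℚ) (q : ℕ), 0 < q → (∃ z : ℤ, r * q = z) → 0 < r → 1 / (q : ℚ) ≤ r := by
    rintro r q hq ⟨z, hz⟩ hr
    have hq' : (0 : ℚ) < q := by exact_mod_cast hq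
    have : (0 : ℚ) < z := by rw [← hz]; positivity
    have h1 : (1 : ℤ) ≤ z := by exact_mod_cast this
    have h2 : (1 : ℚ) ≤ z := by exact_mod_cast h1
    rw [div_le_iff₀ hq']
    linarith
  induction k with
  | zero =>
    intro _ S hS _ r q hq hz hlt
    rw [card_eq_zero] at hS
    subst hS
    simp only [sum_empty, pow_zero, pow_one, sub_zero] at hlt ⊢
    refine le_trans ?_ (hr r q hq hz hlt)
    apply one_div_le_one_div_of_le (by exact_mod_cast hq)
    exact_mod_cast (by nlinarith : q ≤ 2 * K * q)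
  | succ k ih =>
    intro hk S hS hpos r q hq hz hlt
    have hq' : (0 : ℚ) < q := by exact_mod_cast hq
    have hnn : 0 ≤ ∑ n ∈ S, (1 : ℚ) / n := Finset.sum_nonneg fun _ _ => by positivity
    have hr1 := hr r q hq hz (lt_of_le_of_lt hnn hlt)
    have hone : (1 : ℚ) ≤ ((2 * K * q : ℕ) : ℚ) := by
      exact_mod_cast (by nlinarith : 1 ≤ 2 * K * q)
    by_cases hcase : ∑ n ∈ S, (1 : ℚ) / n ≤ 1 / (2 * q)
    · have h1 : 1 / (2 * (q : ℚ)) ≤ r - ∑ n ∈ S, (1 : ℚ) / n := by
        have : 1 / (q : ℚ) = 1 / (2 * q) + 1 / (2 * q) := by field_simp; ring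
        linarith
      refine le_trans ?_ h1
      apply one_div_le_one_div_of_le (by positivity)
      calc 2 * (q : ℚ) ≤ ((2 * K * q : ℕ) : ℚ) := by
            exact_mod_cast (by nlinarith : 2 * q ≤ 2 * K * q)
        _ ≤ _ := le_self_pow₀ hone (by positivity)
    · have hne : S.Nonempty := card_pos.1 (by omega)
      obtain ⟨n, hn, hmin⟩ := S.exists_min_image (fun n => n) hne
      have hn0 := hpos n hn
      have hn' : (0 : ℚ) < n := by exact_mod_cast hn0
      have h1 : ∑ x ∈ S, (1 : ℚ) / x ≤ K * (1 / n) := by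
        calc _ ≤ ∑ _x ∈ S, (1 : ℚ) / n := Finset.sum_le_sum fun x hx =>
              one_div_le_one_div_of_le hn' (by exact_mod_cast hmin x hx)
          _ = (k + 1 : ℕ) * (1 / n) := by rw [sum_const, hS, nsmul_eq_mul]
          _ ≤ _ := by gcongr
      have h2 : n ≤ 2 * K * q := by
        have h3 : 1 / (2 * (q : ℚ)) < K * (1 / n) := lt_of_lt_of_le (not_le.1 hcase) h1
        rw [mul_one_div, div_lt_div_iff₀ (by positivity) hn'] at h3
        have : (n : ℚ) ≤ 2 * K * q := by linarith
        exact_mod_cast this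
      rw [← Finset.add_sum_erase S _ hn] at hlt ⊢
      obtain ⟨z, hz⟩ := hz
      have := ih (by omega) (S.erase n) (by rw [card_erase_of_mem hn]; omega)
        (fun x hx => hpos x (mem_of_mem_erase hx)) (r - 1 / n) (q * n) (by positivity)
        ⟨z * n - q, by push_cast; rw [← hz]; field_simp⟩ (by linarith)
      refine le_trans ?_ (this.trans (le_of_eq (by ring)))
      apply one_div_le_one_div_of_le (by positivity)
      rw [pow_succ' 2 k, pow_mul]
      gcongr
      exact_mod_cast (by nlinarith [Nat.mul_le_mul_left (2 * K * q) h2] :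
        2 * K * (q * n) ≤ (2 * K * q) ^ 2)

lemma lower (b : ℕ) (hb : 2 ≤ b) (S : Finset ℕ) (hS : ∀ n ∈ S, 2 ≤ n)
    (hsum : ∑ n ∈ S, (1 : ℚ) / n = ((b : ℚ) - 1) / b) :
    Real.log (Real.log b) ≤ 3 * S.card := by
  have hb' : (2 : ℚ) ≤ b := by exact_mod_cast hb
  have hK : 1 ≤ S.card := by
    rcases S.eq_empty_or_nonempty with rfl | h
    · rw [sum_empty, eq_comm, div_eq_zero_iff] at hsum
      rcases hsum with h | h <;> linarith
    · exact h.card_pos
  have h1 := gap S.card hK S.card le_rfl S rfl (fun n hn => by have := hS n hn; omega) 1 1 one_pos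
    ⟨1, by simp⟩ (by rw [hsum, div_lt_one (by linarith)]; linarith)
  have h2 : (1 : ℚ) - ((b : ℚ) - 1) / b = 1 / b := by field_simp; ring
  rw [hsum, h2, one_div_le_one_div (by positivity) (by linarith)] at h1
  generalize S.card = K at *
  have h3 : (b : ℝ) ≤ (2 * K) ^ (2 ^ K) := by
    have : b ≤ (2 * K * 1) ^ (2 ^ K) := by exact_mod_cast h1
    rw [mul_one] at this
    exact_mod_cast this
  have hK' : (1 : ℝ) ≤ K := by exact_mod_cast hK
  have hbR : (2 : ℝ) ≤ b := by exact_mod_cast hb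
  have h4 : Real.log b ≤ Real.exp (3 * K) := by
    calc Real.log b ≤ Real.log ((2 * K) ^ (2 ^ K)) := Real.log_le_log (by linarith) h3
      _ = (2 : ℝ) ^ K * Real.log (2 * K) := by rw [Real.log_pow]; push_cast; ring
      _ ≤ Real.exp 1 ^ K * Real.exp (2 * K) := by
          gcongr
          · exact Real.log_nonneg (by linarith)
          · have := Real.add_one_le_exp (1 : ℝ); linarith
          · have h5 := Real.log_le_sub_one_of_pos (by linarith : (0 : ℝ) < 2 * K)
            have h6 := Real.add_one_le_exp (2 * (K : ℝ))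
            linarith
      _ = _ := by rw [← Real.exp_nat_mul, ← Real.exp_add]; congr 1; ring
  calc Real.log (Real.log b) ≤ Real.log (Real.exp (3 * K)) :=
        Real.log_le_log (Real.log_pos (by linarith)) h4
    _ = _ := Real.log_exp _

lemma loglog_bound (b : ℕ) (hb : 16 ≤ b) (L l : ℕ) (hL : L = Nat.log 2 b + 1)
    (hl : l = Nat.log 2 L) :
    1 ≤ Real.log (Real.log b) ∧ (l : ℝ) ≤ 5 * Real.log (Real.log b) := by
  have hbR : (16 : ℝ) ≤ b := by exact_mod_cast hb
  have l2 := Real.log_two_gt_d9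
  have hlogb : 4 * Real.log 2 ≤ Real.log b := by
    have : Real.log 16 = 4 * Real.log 2 := by
      rw [show (16 : ℝ) = 2 ^ 4 by norm_num, Real.log_pow]; norm_num
    rw [← this]
    exact Real.log_le_log (by norm_num) hbR
  have hll : 1 ≤ Real.log (Real.log b) := by
    rw [Real.le_log_iff_exp_le (by linarith)]
    have := Real.exp_one_lt_d9
    linarith
  have e4 : (Nat.log 2 b : ℝ) * Real.log 2 ≤ Real.log b := by
    rw [← Real.log_pow]
    refine Real.log_le_log (by positivity) ?_
    exact_mod_cast Nat.pow_log_le_self 2 (by omega : b ≠ 0)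
  have e5 : (l : ℝ) * Real.log 2 ≤ Real.log L := by
    rw [← Real.log_pow]
    refine Real.log_le_log (by positivity) ?_
    rw [hl]
    exact_mod_cast Nat.pow_log_le_self 2 (by omega : L ≠ 0)
  have e6 : (L : ℝ) ≤ 3 * Real.log b := by
    rw [hL]
    push_cast
    have : (0 : ℝ) ≤ Nat.log 2 b := by positivity
    nlinarith
  have e7 : Real.log L ≤ Real.log 3 + Real.log (Real.log b) := by
    rw [← Real.log_mul (by norm_num) (by linarith)]
    exact Real.log_le_log (by exact_mod_cast (by omega : 0 < L)) e6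
  have e8 : Real.log 3 ≤ 2 := by
    have := Real.log_le_sub_one_of_pos (by norm_num : (0 : ℝ) < 3)
    linarith
  have e9 : (l : ℝ) ≤ 5 * Real.log (Real.log b) := by
    have : (0 : ℝ) ≤ l := by positivity
    nlinarith
  exact ⟨hll, e9⟩

end Vale.Agent.P012
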