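import Vale.Agent.P012.Greedy
import Vale.Agent.P012.Fourier
import Vale.Agent.P012.Average

/-! The upper bound. -/

namespace Vale.Agent.P012

open Finset

lemma sq_le_two_pow (l : ℕ) (hl : 30 ≤ l) : 10000 * l ^ 2 ≤ 2 ^ l := by
  induction l, hl using Nat.le_induction with
  | base => norm_num
  | succ l hl ih => rw [pow_succ 2 l]; nlinarith

lemma two_pow_mono {a b : ℕ} (h : a ≤ b) : 2 ^ a ≤ 2 ^ b := Nat.pow_le_pow_right (by norm_num) h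

lemma num1 (l m : ℕ) (hl : 30 ≤ l) (hml : 10000 * l ^ 2 ≤ m) :
    9000000 ≤ m ∧ m ≤ m * m ∧ l * m ≤ m * m ∧ l * (1410 * l) ≤ m * m ∧ 2 * l + 1 ≤ m := by
  have h1 : 9000000 ≤ m := by nlinarith
  have h2 : m ≤ m * m := by nlinarith
  have h3 : l ≤ m := by nlinarith
  refine ⟨h1, h2, by nlinarith, by nlinarith, by nlinarith⟩

lemma num2 (l m t : ℕ) (hl : 30 ≤ l) (hml : 10000 * l ^ 2 ≤ m)
    (ht : m * m ≤ 2 * l + 1 + 2 * l * t) :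
    7 * (m * m) ≤ t * (28 * l) ∧ m * (500 * l) + 500 * l ≤ t := by
  obtain ⟨h1, h2, h3, h4, h5⟩ := num1 l m hl hml
  have h6 : 2 * (2 * l + 1) ≤ m * m := by nlinarith
  refine ⟨by nlinarith, ?_⟩
  by_contra hlt
  have h7 : t ≤ m * (500 * l) + 500 * l := by omega
  have h8 : 2 * l * t ≤ 2 * l * (m * (500 * l) + 500 * l) := by gcongr
  have h9 : 10000 * l ^ 2 * m ≤ m * m := by gcongr
  nlinarith

lemma num3 (l E : ℕ) (hl : 30 ≤ l) (hE : E = 2 ^ (32 * l + 3)) :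
    10 * (1 + (E + 1) ^ (2 * (2 * l + 7))) ≤ 2 ^ (166 * l ^ 2) := by
  have h1 : E + 1 ≤ 2 ^ (33 * l) := by
    calc E + 1 ≤ 2 * E := by
          have : 0 < E := by rw [hE]; positivity
          omega
      _ = 2 ^ (32 * l + 4) := by rw [hE]; ring
      _ ≤ _ := two_pow_mono (by omega)
  have h2 : (E + 1) ^ (2 * (2 * l + 7)) ≤ 2 ^ (165 * l ^ 2) := by
    calc _ ≤ (2 ^ (33 * l)) ^ (2 * (2 * l + 7)) := by gcongr
      _ = 2 ^ (33 * l * (2 * (2 * l + 7))) := by rw [← pow_mul]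
      _ ≤ _ := two_pow_mono (by nlinarith)
  have h3 : 2 ^ 5 ≤ 2 ^ (l ^ 2) := two_pow_mono (by nlinarith)
  have h4 : 1 ≤ 2 ^ (165 * l ^ 2) := Nat.one_le_two_pow
  have h5 : 2 ^ (166 * l ^ 2) = 2 ^ (l ^ 2) * 2 ^ (165 * l ^ 2) := by
    rw [← pow_add]; congr 1; ring
  rw [h5]
  generalize 2 ^ (165 * l ^ 2) = z at *
  generalize 2 ^ (l ^ 2) = z' at *
  generalize (E + 1) ^ (2 * (2 * l + 7)) = z'' at *
  nlinarith

lemma num4 (l : ℕ) (hl : 30 ≤ l) : 4 * (2 ^ (166 * l ^ 2)) ^ 3 ≤ (2 ^ l) ^ (500 * l) := by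
  calc 4 * (2 ^ (166 * l ^ 2)) ^ 3 = 2 ^ (498 * l ^ 2 + 2) := by ring
    _ ≤ 2 ^ (l * (500 * l)) := two_pow_mono (by nlinarith)
    _ = _ := by rw [pow_mul 2 l]

lemma num5 (l : ℕ) (hl : 30 ≤ l) :
    2 * 2 ^ (166 * l ^ 2) * (2 ^ (2 * l)) ^ (500 * l) ≤ (2 ^ l) ^ (1410 * l) := by
  calc 2 * 2 ^ (166 * l ^ 2) * (2 ^ (2 * l)) ^ (500 * l) = 2 ^ (1166 * l ^ 2 + 1) := by
        rw [← pow_mul]; ring
    _ ≤ 2 ^ (l * (1410 * l)) := two_pow_mono (by nlinarith)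
    _ = _ := by rw [pow_mul 2 l]

theorem upper (l : ℕ) (hl : 30 ≤ l) (a b : ℕ) (ha : 1 ≤ a) (hab : a < b) (hb : b ≤ 2 ^ (4 ^ l)) :
    EF (3100 * l) ((a : ℚ) / b) := by
  obtain ⟨m, hm⟩ : ∃ m, m = 2 ^ l := ⟨_, rfl⟩
  obtain ⟨y, hy⟩ : ∃ y, y = 4 ^ l := ⟨_, rfl⟩
  have hym : y = m * m := by rw [hy, hm, ← mul_pow]; norm_num
  have hy2 : y = 2 ^ (2 * l) := by rw [hy, pow_mul]; norm_num
  have hml : 10000 * l ^ 2 ≤ m := hm ▸ sq_le_two_pow l hl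
  obtain ⟨hm1, hmy, hn3, hn4, hn5⟩ := num1 l m hl hml
  rw [← hym] at hmy hn3 hn4
  have hy0 : 0 < y := by omega
  rw [← hy] at hb
  obtain ⟨t, ht⟩ : ∃ t, t = (Nat.primesLE y).card := ⟨_, rfl⟩
  have hty : y ≤ 2 * l + 1 + 2 * l * t := by
    have h1 := primes_lower y hy0
    rw [← ht] at h1
    have h2 : (y + 1) * y ^ t ≤ 2 ^ (2 * l + 1 + 2 * l * t) := by
      rw [pow_add, pow_mul 2 (2 * l) t, ← hy2, pow_succ, ← hy2]
      gcongr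
      omega
    exact (Nat.pow_le_pow_iff_right (by norm_num : 1 < 2)).1 (h1.trans h2)
  obtain ⟨hn6, hn7⟩ := num2 l m t hl hml (hym ▸ hty)
  rw [← hym] at hn6
  obtain ⟨Q₀, hQ₀⟩ : ∃ Q₀, Q₀ = primorial y := ⟨_, rfl⟩
  have hQ₀pos : 0 < Q₀ := hQ₀ ▸ primorial_pos y
  have hQ₀le : Q₀ ≤ 2 ^ (2 * y) := by
    rw [hQ₀, pow_mul]; exact primorial_le_four_pow y
  obtain ⟨D, hD1, hD2⟩ := exists_D y
  obtain ⟨F, hF1, hF2⟩ := exists_F y (500 * l)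
  rw [← hQ₀] at hD1 hF1
  rw [← ht] at hD2 hF2
  obtain ⟨a₁, b₁, g1, g2, g3, g4, g5⟩ := phase1 a b ha hab (2 * l + 1)
  have g3' : Q₀ * a₁ ≤ b₁ := by
    refine le_trans (Nat.mul_le_mul_right _ (hQ₀le.trans (le_of_eq ?_))) g3
    rw [pow_succ 2 (2 * l), ← hy2, mul_comm]
  obtain ⟨a₂, b₂, R, A, k1, k2, k3, k4, k5, k6, k7, k8⟩ :=
    phase2 Q₀ hQ₀pos D hD1 a₁ b₁ g1 g3' (28 * l)
  have hb₂ : 0 < b₂ := lt_of_lt_of_le (Nat.mul_pos hQ₀pos k1) k3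
  obtain ⟨E, hE⟩ : ∃ E, E = 2 ^ (32 * l + 3) := ⟨_, rfl⟩
  have hb₂E : b₂ ≤ 2 ^ E := by
    have h1 : 2 * b ≤ 2 ^ (2 ^ (2 * l + 1)) := by
      calc 2 * b ≤ 2 * 2 ^ y := by gcongr
        _ = 2 ^ (y + 1) := by ring
        _ ≤ _ := two_pow_mono (by rw [pow_succ, ← hy2]; omega)
    calc b₂ ≤ 2 * b₂ := by omega
      _ ≤ (2 * b₁) ^ (2 ^ (28 * l)) := k4
      _ ≤ ((2 * b) ^ (2 ^ (2 * l + 1 + 1))) ^ (2 ^ (28 * l)) := by gcongr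
      _ ≤ ((2 ^ (2 ^ (2 * l + 1))) ^ (2 ^ (2 * l + 1 + 1))) ^ (2 ^ (28 * l)) := by gcongr
      _ = 2 ^ E := by
          rw [← pow_mul, ← pow_mul, ← pow_add, ← pow_add, hE]
          congr 2
          ring
  obtain ⟨T, hT⟩ : ∃ T, T = m.factorial * m ^ (1410 * l) := ⟨_, rfl⟩
  have hTpos : 2 ≤ T := by
    rw [hT]
    have h1 : m ≤ m.factorial := Nat.self_le_factorial m
    have h2 : 0 < m ^ (1410 * l) := by positivity
    exact le_trans (by omega) (Nat.le_mul_of_pos_right _ h2)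
  have hTle : T ≤ 2 ^ (2 * y) := by
    have h1 : m.factorial ≤ 2 ^ y := by
      calc m.factorial ≤ m ^ m := Nat.factorial_le_pow m
        _ = 2 ^ (l * m) := by rw [pow_mul, ← hm]
        _ ≤ 2 ^ y := two_pow_mono hn3
    have h2 : m ^ (1410 * l) ≤ 2 ^ y := by
      calc m ^ (1410 * l) = 2 ^ (l * (1410 * l)) := by rw [pow_mul 2 l, ← hm]
        _ ≤ 2 ^ y := two_pow_mono hn4
    calc T ≤ 2 ^ y * 2 ^ y := by rw [hT]; gcongr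
      _ = _ := by rw [← pow_add, two_mul]
  obtain ⟨Q, hQ⟩ : ∃ Q, Q = Q₀ * Q₀ * T := ⟨_, rfl⟩
  have hQ2 : 2 ≤ Q := by
    rw [hQ]
    exact hTpos.trans (Nat.le_mul_of_pos_left _ (Nat.mul_pos hQ₀pos hQ₀pos))
  have hQle : Q ≤ 2 ^ (6 * y) := by
    calc Q ≤ 2 ^ (2 * y) * 2 ^ (2 * y) * 2 ^ (2 * y) := by rw [hQ]; gcongr
      _ = _ := by rw [← pow_add, ← pow_add]; congr 1; ring
  have hN2 : 2 ≤ a₂ * Q := hQ2.trans (Nat.le_mul_of_pos_left _ k1)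
  have hNe : a₂ * Q ≤ 2 ^ (7 * y) := by
    calc a₂ * Q ≤ 2 ^ y * 2 ^ (6 * y) := by gcongr; omega
      _ = _ := by rw [← pow_add]; congr 1; ring
  have hNA : a₂ * Q ≤ A.card := by
    rw [k7, hD2, ← pow_mul]
    exact hNe.trans (two_pow_mono hn6)
  have hAE : ∀ u ∈ A, u ≤ 2 ^ E := fun u hu =>
    ((k8 u hu).1.le.trans (Nat.le_of_dvd hb₂ k6)).trans hb₂E
  have hk : 10 * (1 + 7 * y) ≤ 2 ^ (2 * l + 7) := by
    rw [pow_add, ← hy2]; omega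
  obtain ⟨K₁, K₂, hK₁, hK₂, hsum, hgood⟩ :=
    exists_split (a₂ * Q) E (7 * y) (2 * l + 7) A hN2 hAE hNA hNe hk
  have hM := num3 l E hl hE
  have hFM : 4 * (2 ^ (166 * l ^ 2)) ^ 3 ≤ F.card := by
    rw [hF2]
    refine le_trans ?_ (pow_le_choose' m (500 * l) t hn7)
    rw [hm]; exact num4 l hl
  have hW : 2 * 2 ^ (166 * l ^ 2) * y ^ (500 * l) ≤ m ^ (1410 * l) := by
    rw [hm, hy2]; exact num5 l hl
  have hAne : A.Nonempty := card_pos.1 (by omega)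
  have hB : 0 < b₂ * Q := by positivity
  have hRQ : R * Q₀ ∣ b₂ * Q :=
    Nat.mul_dvd_mul k6 (by rw [hQ, mul_assoc]; exact Dvd.intro _ rfl)
  have hK : ∀ K, 0 < K → (K = K₁ ∨ K = K₂) →
      EF (28 * l + 28 * l + 28 * l + 1410 * l + 1) ((K : ℚ) / ((b₂ * Q : ℕ) : ℚ)) := by
    intro K hK0 hK
    obtain ⟨u₁, h₁, u₂, h₂, u₃, h₃, f, hf, w, hw, hdvd⟩ :=
      cover hK0 A F (m ^ (1410 * l)) (y ^ (500 * l)) (2 ^ (166 * l ^ 2)) hAne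
        (fun f hf => (hF1 f hf).2)
        ((hgood K hK).trans (Nat.mul_le_mul_right _ hM)) hFM hW (by positivity) (by positivity)
    refine SD.toEF hB ?_ (by omega) hdvd
    refine ((((k8 u₁ h₁).2.mono hRQ le_rfl).add ((k8 u₂ h₂).2.mono hRQ le_rfl)).add
      (((k8 u₃ h₃).2.mul f).mono ?_ le_rfl)).add
      ((digits m (by omega) _ w hw).mono ?_ le_rfl) |>.add (SD.single (one_dvd _))
    · have : f * (R * Q₀) = R * (f * Q₀) := by ring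
      rw [this, hQ]
      exact Nat.mul_dvd_mul k6 (Dvd.dvd.mul_right (Nat.mul_dvd_mul_right (hF1 f hf).1 _) _)
    · rw [← hT, hQ]
      exact Dvd.dvd.mul_left (Dvd.intro_left _ rfl) _
  have := (g5.add k5).add ((hK K₁ hK₁ (Or.inl rfl)).add (hK K₂ hK₂ (Or.inr rfl)))
  refine (this.mono (by omega : _ ≤ 3100 * l)) |> fun h => ?_
  convert h using 1
  have e1 : (K₁ : ℚ) + K₂ = a₂ * Q := by exact_mod_cast hsum
  have e2 : (Q : ℚ) ≠ 0 := by positivity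
  have e3 : (b₂ : ℚ) ≠ 0 := by positivity
  rw [← add_div, e1]
  push_cast
  field_simp
  ring

end Vale.Agent.P012
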